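import Mathlib

namespace Vale.Agent.Lib.P033

open Finset Matrix

variable {n : ℕ} [NeZero n]

theorem entry_sq {h : ZMod n → ℤ} (hH : (Matrix.circulant h).IsHadamard) (j : ZMod n) :
    h j * h j = 1 := by
  have := hH.apply_mem j 0
  rw [Matrix.circulant_apply, sub_zero] at this
  rcases Unitary.mem_iff_eq_one_or_eq_neg_one.mp this with h1 | h1 <;> simp [h1]

theorem entry_pm {h : ZMod n → ℤ} (hH : (Matrix.circulant h).IsHadamard) (j : ZMod n) :
    h j = 1 ∨ h j = -1 := by
  have := hH.apply_mem j 0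
  rw [Matrix.circulant_apply, sub_zero] at this
  exact Unitary.mem_iff_eq_one_or_eq_neg_one.mp this

theorem autocorr {h : ZMod n → ℤ} (hH : (Matrix.circulant h).IsHadamard) {t : ZMod n}
    (ht : t ≠ 0) : ∑ j, h j * h (j + t) = 0 := by
  have key := congr_fun (congr_fun hH.mul_conjTranspose 0) t
  have ht' : (0 : ZMod n) ≠ t := fun e => ht e.symm
  simp only [Matrix.mul_apply, Matrix.conjTranspose_apply, Matrix.circulant_apply, star_trivial,
    Matrix.smul_apply, Matrix.one_apply, if_neg ht', smul_zero, zero_sub] at key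
  rw [← key]
  refine Fintype.sum_equiv (Equiv.neg (ZMod n)) _ _ ?_
  intro j
  simp only [Equiv.neg_apply, neg_neg, sub_neg_eq_add]
  rw [add_comm t j]

end Vale.Agent.Lib.P033
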