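import Mathlib

namespace Vale.Agent.Lib.P033

open Finset

theorem pair_sum_mod_two {m : ℕ} [NeZero m] (hodd : Odd m) (φ : ZMod m → ZMod 2)
    (hφ : ∀ y, φ (-y) = φ y) (s : ZMod m) :
    ∑ y, φ y * φ (y - (s + s)) = φ s * φ s := by
  classical
  rw [← Finset.add_sum_erase Finset.univ _ (Finset.mem_univ s)]
  have h0 : ∑ y ∈ Finset.univ.erase s, φ y * φ (y - (s + s)) = 0 := by
    refine Finset.sum_involution (fun y _ => s + s - y) ?_ ?_ ?_ ?_
    · intro y _
      have e1 : s + s - y - (s + s) = -y := by abel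
      have e2 : s + s - y = -(y - (s + s)) := by abel
      rw [e1, hφ, e2, hφ, mul_comm (φ (y - (s + s))) (φ y)]
      exact CharTwo.add_self_eq_zero _
    · intro y hy _ e
      have hne : y ≠ s := Finset.ne_of_mem_erase hy
      apply hne
      have h2 : (s - y) + (s - y) = 0 := by
        calc (s - y) + (s - y) = (s + s - y) - y := by abel
          _ = y - y := by rw [e]
          _ = 0 := sub_self y
      have h3 := (ZMod.add_self_eq_zero_iff_eq_zero hodd).mp h2
      exact (sub_eq_zero.mp h3).symm
    · intro y hy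
      refine Finset.mem_erase.mpr ⟨?_, Finset.mem_univ _⟩
      intro e
      have hne : y ≠ s := Finset.ne_of_mem_erase hy
      apply hne
      linear_combination (-1 : ZMod m) * e
    · intro y _
      abel
  rw [h0, add_zero]
  have e3 : s - (s + s) = -s := by abel
  rw [e3, hφ]

theorem core {m : ℕ} [NeZero m] (hodd : Odd m) (hm : 1 < m)
    (a b : ZMod m → ℤ)
    (ha : ∀ y, a y = 0 ∨ a y = 1 ∨ a y = -1) (hb : ∀ y, b y = 0 ∨ b y = 1 ∨ b y = -1)
    (hae : ∀ y, a (-y) = a y) (hbo : ∀ y, b (-y) = - b y)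
    (hcorr : ∀ t : ZMod m, ∑ y, (a y + b y) * (a (y + t) + b (y + t)) =
      if t = 0 then (m : ℤ) else 0) : False := by
  have step1 : ∀ s : ZMod m, s ≠ 0 → Even (a s + b s) := by
    intro s hs
    have hφ : ∀ y, (((a (-y) + b (-y) : ℤ)) : ZMod 2) = ((a y + b y : ℤ) : ZMod 2) := by
      intro y
      rw [hae, hbo]
      push_cast
      rw [CharTwo.neg_eq]
    have hsum := pair_sum_mod_two hodd (fun y => ((a y + b y : ℤ) : ZMod 2)) hφ s
    have ht : -(s + s) ≠ 0 := by
      intro e
      exact hs ((ZMod.add_self_eq_zero_iff_eq_zero hodd).mp (neg_eq_zero.mp e))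
    have hc := hcorr (-(s + s))
    rw [if_neg ht] at hc
    have hc2 := congrArg (Int.cast : ℤ → ZMod 2) hc
    simp only [Int.cast_sum, Int.cast_mul, Int.cast_zero] at hc2
    have hc3 : ∑ y, ((a y + b y : ℤ) : ZMod 2) * ((a (y - (s + s)) + b (y - (s + s)) : ℤ) : ZMod 2)
        = 0 := by
      rw [← hc2]
      refine Finset.sum_congr rfl ?_
      intro y _
      rw [sub_eq_add_neg]
    rw [hsum] at hc3
    have h4 : ((a s + b s : ℤ) : ZMod 2) = 0 := by
      simpa using hc3
    rw [ZMod.intCast_zmod_eq_zero_iff_dvd] at h4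
    exact even_iff_two_dvd.mpr (by exact_mod_cast h4)
  have hb0 : b 0 = 0 := by
    have := hbo 0
    rw [neg_zero] at this
    omega
  have hb_of : ∀ s : ZMod m, s ≠ 0 → a s = 0 → b s = 0 := by
    intro s hs h0
    have he := step1 s hs
    rw [h0, zero_add] at he
    rcases hb s with h1 | h1 | h1
    · exact h1
    · rw [h1] at he; exact absurd he (by decide)
    · rw [h1] at he; exact absurd he (by decide)
  have hen := hcorr 0
  rw [if_pos rfl] at hen
  simp only [add_zero] at hen
  rcases ha 0 with ha0 | ha0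
  · -- all values even
    have hall : ∀ y : ZMod m, (4 : ℤ) ∣ (a y + b y) * (a y + b y) := by
      intro y
      by_cases hy : y = 0
      · subst hy; rw [ha0, hb0]; simp
      · obtain ⟨k, hk⟩ := step1 y hy
        rw [hk]
        exact ⟨k * k, by ring⟩
    have h4 : (4 : ℤ) ∣ (m : ℤ) := by
      rw [← hen]
      exact Finset.dvd_sum (fun y _ => hall y)
    have h2 : (2 : ℤ) ∣ (m : ℤ) := dvd_trans (by norm_num) h4
    have h2' : 2 ∣ m := by exact_mod_cast h2
    exact (Nat.not_even_iff_odd.mpr hodd) (even_iff_two_dvd.mpr h2')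
  · -- a 0 = 1 or -1
    have hzero : ∀ t : ZMod m, t ≠ 0 → a t = 0 := by
      intro t ht
      have hc := hcorr t
      rw [if_neg ht] at hc
      have hc2 := congrArg (Int.cast : ℤ → ZMod 4) hc
      simp only [Int.cast_sum, Int.cast_zero] at hc2
      have hnt : (0 : ZMod m) ≠ -t := fun e => ht (neg_eq_zero.mp e.symm)
      rw [Fintype.sum_eq_add (0 : ZMod m) (-t) hnt] at hc2
      · rw [zero_add, neg_add_cancel, hae, hbo, hb0] at hc2
        have h5 : (((a 0 + 0) * (a t + b t) + (a t + -b t) * (a 0 + 0) : ℤ) : ZMod 4) = 0 := by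
          push_cast
          push_cast at hc2
          exact hc2
        rw [ZMod.intCast_zmod_eq_zero_iff_dvd] at h5
        have h6 : (4 : ℤ) ∣ (a 0 + 0) * (a t + b t) + (a t + -b t) * (a 0 + 0) := by
          exact_mod_cast h5
        rcases ha0 with h1 | h1 <;> rcases ha t with h2 | h2 | h2 <;> rw [h1, h2] at h6 <;>
          first | exact h2 | (exfalso; revert h6; ring_nf; decide)
      · intro y hy
        obtain ⟨k, hk⟩ := step1 y hy.1
        have hyt : y + t ≠ 0 := by
          intro e
          exact hy.2 (eq_neg_of_add_eq_zero_left e)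
        obtain ⟨k', hk'⟩ := step1 (y + t) hyt
        rw [hk, hk']
        have : ((k + k) * (k' + k') : ℤ) = 4 * (k * k') := by ring
        rw [this]
        push_cast
        have h44 : (4 : ZMod 4) = 0 := by decide
        rw [h44, zero_mul]
    have hsingle : ∑ y : ZMod m, (a y + b y) * (a y + b y) = (a 0 + b 0) * (a 0 + b 0) := by
      refine Finset.sum_eq_single 0 ?_ ?_
      · intro y _ hy
        rw [hzero y hy, hb_of y hy (hzero y hy)]
        simp
      · intro h; exact absurd (Finset.mem_univ _) h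
    rw [hsingle, hb0] at hen
    have : (m : ℤ) = 1 := by
      rcases ha0 with h1 | h1 <;> rw [h1] at hen <;> simpa using hen.symm
    have : m = 1 := by exact_mod_cast this
    omega

end Vale.Agent.Lib.P033
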