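import Vale.Agent.Lib.P033.Runs

namespace Vale.Agent.Lib.P033

open Finset Matrix

variable {n : ℕ} [NeZero n]

omit [NeZero n] in
theorem natCast_ne {a b : ℕ} (hab : a < b) (hb : b < n) :
    ((a : ℕ) : ZMod n) ≠ ((b : ℕ) : ZMod n) := by
  intro e
  rw [ZMod.natCast_eq_natCast_iff', Nat.mod_eq_of_lt (by omega), Nat.mod_eq_of_lt hb] at e
  omega

theorem quad_sum {h : ZMod n → ℤ} (hn : 4 ≤ n) (hH : (Matrix.circulant h).IsHadamard) :
    ∑ j : ZMod n, (1 + h j * h (j + 1)) * (1 + h (j + 1) * h (j + 2)) * (1 + h (j + 2) * h (j + 3))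
      = n + ∑ j : ZMod n, h j * h (j + 1) * h (j + 2) * h (j + 3) := by
  have e01 : (0 : ZMod n) ≠ 1 := by
    have := natCast_ne (n := n) (a := 0) (b := 1) (by omega) (by omega)
    simpa using this
  have e02 : (0 : ZMod n) ≠ 2 := by
    have := natCast_ne (n := n) (a := 0) (b := 2) (by omega) (by omega)
    simpa using this
  have e03 : (0 : ZMod n) ≠ 3 := by
    have := natCast_ne (n := n) (a := 0) (b := 3) (by omega) (by omega)
    simpa using this
  have e12 : (1 : ZMod n) ≠ 2 := by
    have := natCast_ne (n := n) (a := 1) (b := 2) (by omega) (by omega)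
    simpa using this
  have e13 : (1 : ZMod n) ≠ 3 := by
    have := natCast_ne (n := n) (a := 1) (b := 3) (by omega) (by omega)
    simpa using this
  have e23 : (2 : ZMod n) ≠ 3 := by
    have := natCast_ne (n := n) (a := 2) (b := 3) (by omega) (by omega)
    simpa using this
  have c01 := corr_eq hH 0 1
  have c02 := corr_eq hH 0 2
  have c03 := corr_eq hH 0 3
  have c12 := corr_eq hH 1 2
  have c13 := corr_eq hH 1 3
  have c23 := corr_eq hH 2 3
  rw [if_neg e01] at c01
  rw [if_neg e02] at c02
  rw [if_neg e03] at c03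
  rw [if_neg e12] at c12
  rw [if_neg e13] at c13
  rw [if_neg e23] at c23
  simp only [add_zero] at c01 c02 c03
  have expand : ∀ j : ZMod n,
      (1 + h j * h (j + 1)) * (1 + h (j + 1) * h (j + 2)) * (1 + h (j + 2) * h (j + 3)) =
      1 + h j * h (j + 1) + h (j + 1) * h (j + 2) + h (j + 2) * h (j + 3) + h j * h (j + 2)
        + h (j + 1) * h (j + 3) + h j * h (j + 3) + h j * h (j + 1) * h (j + 2) * h (j + 3) := by
    intro j
    have hb := entry_sq hH (j + 1)
    have hc := entry_sq hH (j + 2)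
    have e1 : h j * h (j + 1) * (h (j + 1) * h (j + 2)) = h j * h (j + 2) * (h (j + 1) * h (j + 1)) := by ring
    have e2 : h (j + 1) * h (j + 2) * (h (j + 2) * h (j + 3)) = h (j + 1) * h (j + 3) * (h (j + 2) * h (j + 2)) := by ring
    have e3 : h j * h (j + 1) * (h (j + 1) * h (j + 2)) * (h (j + 2) * h (j + 3)) =
        h j * h (j + 3) * (h (j + 1) * h (j + 1)) * (h (j + 2) * h (j + 2)) := by ring
    rw [hb] at e1 e3
    rw [hc] at e2 e3
    linear_combination e1 + e2 + e3
  simp_rw [expand]
  simp only [Finset.sum_add_distrib, c01, c02, c03, c12, c13, c23, Finset.sum_const,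
    Finset.card_univ, ZMod.card, nsmul_eq_mul, mul_one, add_zero]

theorem four_run {h : ZMod n → ℤ} (hn : 4 < n) (hH : (Matrix.circulant h).IsHadamard) :
    ∃ j : ZMod n, h j = h (j + 1) ∧ h (j + 1) = h (j + 2) ∧ h (j + 2) = h (j + 3) := by
  by_contra hcon
  have hq := quad_sum (by omega) hH
  have hzero : ∀ j : ZMod n,
      (1 + h j * h (j + 1)) * (1 + h (j + 1) * h (j + 2)) * (1 + h (j + 2) * h (j + 3)) = 0 := by
    intro j
    have h3 : ¬ (h j = h (j + 1) ∧ h (j + 1) = h (j + 2) ∧ h (j + 2) = h (j + 3)) :=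
      fun e => hcon ⟨j, e⟩
    rcases entry_pm hH j with a | a <;> rcases entry_pm hH (j + 1) with b | b <;>
      rcases entry_pm hH (j + 2) with c | c <;> rcases entry_pm hH (j + 3) with d | d <;>
      simp [a, b, c, d] at h3 ⊢
  rw [Finset.sum_congr rfl (fun j _ => hzero j), Finset.sum_const_zero] at hq
  have hQ : ∑ j : ZMod n, (h j * h (j + 1) * h (j + 2) * h (j + 3) + 1) = 0 := by
    rw [Finset.sum_add_distrib]
    simp only [Finset.sum_const, Finset.card_univ, ZMod.card, nsmul_eq_mul, mul_one]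
    linarith
  have hnn : ∀ j ∈ (Finset.univ : Finset (ZMod n)),
      0 ≤ h j * h (j + 1) * h (j + 2) * h (j + 3) + 1 := by
    intro j _
    rcases entry_pm hH j with a | a <;> rcases entry_pm hH (j + 1) with b | b <;>
      rcases entry_pm hH (j + 2) with c | c <;> rcases entry_pm hH (j + 3) with d | d <;>
      simp [a, b, c, d]
  have hall := (Finset.sum_eq_zero_iff_of_nonneg hnn).mp hQ
  have hper : ∀ j : ZMod n, h j * h (j + 4) = 1 := by
    intro j
    have q0 := hall j (Finset.mem_univ _)
    have q1 := hall (j + 1) (Finset.mem_univ _)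
    have e2 : j + 1 + 1 = j + 2 := by ring
    have e3 : j + 1 + 2 = j + 3 := by ring
    have e4 : j + 1 + 3 = j + 4 := by ring
    rw [e2, e3, e4] at q1
    rcases entry_pm hH j with a | a <;> rcases entry_pm hH (j + 1) with b | b <;>
      rcases entry_pm hH (j + 2) with c | c <;> rcases entry_pm hH (j + 3) with d | d <;>
      rcases entry_pm hH (j + 4) with f | f <;>
      simp [a, b, c, d, f] at q0 q1 ⊢
  have e4 : (4 : ZMod n) ≠ 0 := by
    have := natCast_ne (n := n) (a := 0) (b := 4) (by omega) hn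
    simpa using this.symm
  have hP := autocorr hH e4
  rw [Finset.sum_congr rfl (fun j _ => hper j)] at hP
  simp only [Finset.sum_const, Finset.card_univ, ZMod.card, nsmul_eq_mul, mul_one] at hP
  have : (n : ℤ) ≠ 0 := by exact_mod_cast (NeZero.ne n)
  exact this hP

end Vale.Agent.Lib.P033
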