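import Vale.Agent.Lib.P033.TwistedReflection

namespace Vale.Agent.Lib.P033

open Finset Matrix

theorem crt_snd {m : ℕ} [NeZero (4 * m)] (hc : Nat.Coprime 4 m) (j : ZMod (4 * m)) :
    (ZMod.chineseRemainder hc j).2 = ((j.val : ℕ) : ZMod m) := by
  change (ZMod.castHom (show Nat.lcm 4 m ∣ 4 * m by simp [Nat.lcm_dvd_iff])
    (ZMod 4 × ZMod m) j).2 = _
  rw [ZMod.castHom_apply, Prod.snd_zmod_cast, ZMod.natCast_val]

theorem fiber_prod (F : ZMod 4 → ℤ) (r μ : ZMod 4) (hμ : μ = 1 ∨ μ = 3) :
    F r * F (r + μ) * F (r + 2 * μ) * F (r + 3 * μ) = F 0 * F 1 * F 2 * F 3 := by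
  rcases hμ with rfl | rfl
  · fin_cases r
    · have e1 : (0 : ZMod 4) + 1 = 1 := by decide
      have e2 : (0 : ZMod 4) + 2 * 1 = 2 := by decide
      have e3 : (0 : ZMod 4) + 3 * 1 = 3 := by decide
      change F 0 * F (0 + 1) * F (0 + 2 * 1) * F (0 + 3 * 1) = _
      rw [e1, e2, e3]
    · have e1 : (1 : ZMod 4) + 1 = 2 := by decide
      have e2 : (1 : ZMod 4) + 2 * 1 = 3 := by decide
      have e3 : (1 : ZMod 4) + 3 * 1 = 0 := by decide
      change F 1 * F (1 + 1) * F (1 + 2 * 1) * F (1 + 3 * 1) = _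
      rw [e1, e2, e3]; ring
    · have e1 : (2 : ZMod 4) + 1 = 3 := by decide
      have e2 : (2 : ZMod 4) + 2 * 1 = 0 := by decide
      have e3 : (2 : ZMod 4) + 3 * 1 = 1 := by decide
      change F 2 * F (2 + 1) * F (2 + 2 * 1) * F (2 + 3 * 1) = _
      rw [e1, e2, e3]; ring
    · have e1 : (3 : ZMod 4) + 1 = 0 := by decide
      have e2 : (3 : ZMod 4) + 2 * 1 = 1 := by decide
      have e3 : (3 : ZMod 4) + 3 * 1 = 2 := by decide
      change F 3 * F (3 + 1) * F (3 + 2 * 1) * F (3 + 3 * 1) = _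
      rw [e1, e2, e3]; ring
  · fin_cases r
    · have e1 : (0 : ZMod 4) + 3 = 3 := by decide
      have e2 : (0 : ZMod 4) + 2 * 3 = 2 := by decide
      have e3 : (0 : ZMod 4) + 3 * 3 = 1 := by decide
      change F 0 * F (0 + 3) * F (0 + 2 * 3) * F (0 + 3 * 3) = _
      rw [e1, e2, e3]; ring
    · have e1 : (1 : ZMod 4) + 3 = 0 := by decide
      have e2 : (1 : ZMod 4) + 2 * 3 = 3 := by decide
      have e3 : (1 : ZMod 4) + 3 * 3 = 2 := by decide
      change F 1 * F (1 + 3) * F (1 + 2 * 3) * F (1 + 3 * 3) = _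
      rw [e1, e2, e3]; ring
    · have e1 : (2 : ZMod 4) + 3 = 1 := by decide
      have e2 : (2 : ZMod 4) + 2 * 3 = 0 := by decide
      have e3 : (2 : ZMod 4) + 3 * 3 = 3 := by decide
      change F 2 * F (2 + 3) * F (2 + 2 * 3) * F (2 + 3 * 3) = _
      rw [e1, e2, e3]; ring
    · have e1 : (3 : ZMod 4) + 3 = 2 := by decide
      have e2 : (3 : ZMod 4) + 2 * 3 = 1 := by decide
      have e3 : (3 : ZMod 4) + 3 * 3 = 0 := by decide
      change F 3 * F (3 + 3) * F (3 + 2 * 3) * F (3 + 3 * 3) = _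
      rw [e1, e2, e3]; ring

theorem quarter_main {m : ℕ} [NeZero (4 * m)] (hodd : Odd m)
    (h : ZMod (4 * m) → ℤ) (hH : (Matrix.circulant h).IsHadamard)
    (q : ZMod (4 * m) → ℤ)
    (hq : ∀ j, q j = h j * h (j + m) * h (j + 2 * m) * h (j + 3 * m)) :
    (Finset.univ.filter (fun j : ZMod (4 * m) => q j = -1)).card % 16 = (4 * m) % 16 ∧
    (∀ t : ZMod (4 * m), ¬ m ∣ t.val →
      8 ∣ (Finset.univ.filter (fun j : ZMod (4 * m) => q j = -1 ∧ q (j + t) = -1)).card) ∧
    (∀ t : ZMod (4 * m), ¬ m ∣ t.val →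
      (Finset.univ.filter (fun j : ZMod (4 * m) => q j = 1 ∧ q (j + t) = 1)).card % 8 = 4) ∧
    16 * (m - 1) + 4 * (Finset.univ.filter (fun j : ZMod (4 * m) => q j = 1)).card ≤
      (Finset.univ.filter (fun j : ZMod (4 * m) => q j = 1)).card ^ 2 := by
  have hm0 : m ≠ 0 := by
    rintro rfl
    exact absurd hodd (by decide)
  have : NeZero m := ⟨hm0⟩
  have hc : Nat.Coprime 4 m := by
    have : Nat.Coprime 2 m := Nat.coprime_two_left.mpr hodd
    exact Nat.Coprime.pow_left 2 this
  obtain ⟨e, he⟩ : ∃ e : ZMod (4 * m) ≃+* ZMod 4 × ZMod m,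
      ∀ j, (e j).2 = ((j.val : ℕ) : ZMod m) := ⟨ZMod.chineseRemainder hc, crt_snd hc⟩
  set H : ZMod 4 → ZMod m → ℤ := fun r y => h (e.symm (r, y)) with hHdef
  have Hpm : ∀ r y, H r y = 1 ∨ H r y = -1 := fun r y => entry_pm hH _
  -- perfectness in product form
  have hP : ∀ (s : ZMod 4) (t : ZMod m), ∑ r : ZMod 4, ∑ y : ZMod m, H r y * H (r + s) (y + t) =
      if (s = 0 ∧ t = 0) then ((4 * m : ℕ) : ℤ) else 0 := by
    intro s t
    have h1 := corr_eq hH 0 (e.symm (s, t))
    rw [crt_sum e] at h1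
    have h2 : ∀ (r : ZMod 4) (y : ZMod m),
        h (e.symm (r, y) + 0) * h (e.symm (r, y) + e.symm (s, t)) = H r y * H (r + s) (y + t) := by
      intro r y
      rw [add_zero, ← map_add]
      rfl
    simp_rw [h2] at h1
    rw [h1]
    by_cases hst : s = 0 ∧ t = 0
    · rw [if_pos hst, if_pos]
      rw [hst.1, hst.2]
      exact (map_zero e.symm).symm
    · rw [if_neg hst, if_neg]
      intro e0
      apply hst
      have e1 : e.symm (s, t) = e.symm 0 := by rw [← e0, map_zero]
      have e2 := e.symm.injective e1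
      exact ⟨congrArg Prod.fst e2, congrArg Prod.snd e2⟩
  -- folded correlation
  have hG : ∀ t : ZMod m, ∑ y : ZMod m, (H 0 y + H 1 y + H 2 y + H 3 y) *
      (H 0 (y + t) + H 1 (y + t) + H 2 (y + t) + H 3 (y + t)) =
      if t = 0 then ((4 * m : ℕ) : ℤ) else 0 := by
    intro t
    have h1 : ∑ s : ZMod 4, ∑ r : ZMod 4, ∑ y : ZMod m, H r y * H (r + s) (y + t) =
        ∑ s : ZMod 4, (if (s = 0 ∧ t = 0) then ((4 * m : ℕ) : ℤ) else 0) :=
      Finset.sum_congr rfl (fun s _ => hP s t)
    have h2 : ∑ s : ZMod 4, (if (s = 0 ∧ t = 0) then ((4 * m : ℕ) : ℤ) else 0) =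
        if t = 0 then ((4 * m : ℕ) : ℤ) else 0 := by
      by_cases ht : t = 0
      · simp [ht]
      · simp [ht]
    rw [h2] at h1
    rw [← h1]
    have h3 : ∀ y : ZMod m, (H 0 y + H 1 y + H 2 y + H 3 y) *
        (H 0 (y + t) + H 1 (y + t) + H 2 (y + t) + H 3 (y + t)) =
        ∑ s : ZMod 4, ∑ r : ZMod 4, H r y * H (r + s) (y + t) := by
      intro y
      have e4 : ∀ f : ZMod 4 → ℤ, ∑ s : ZMod 4, f s = f 0 + f 1 + f 2 + f 3 := by
        intro f
        exact Fin.sum_univ_four f
      rw [e4]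
      simp only [e4]
      have a1 : (1 : ZMod 4) + 1 = 2 := by decide
      have a2 : (1 : ZMod 4) + 2 = 3 := by decide
      have a3 : (1 : ZMod 4) + 3 = 0 := by decide
      have a4 : (2 : ZMod 4) + 1 = 3 := by decide
      have a5 : (2 : ZMod 4) + 2 = 0 := by decide
      have a6 : (2 : ZMod 4) + 3 = 1 := by decide
      have a7 : (3 : ZMod 4) + 1 = 0 := by decide
      have a8 : (3 : ZMod 4) + 2 = 1 := by decide
      have a9 : (3 : ZMod 4) + 3 = 2 := by decide
      simp only [add_zero, zero_add, a1, a2, a3, a4, a5, a6, a7, a8, a9]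
      ring
    simp_rw [h3]
    rw [Finset.sum_comm]
    refine Finset.sum_congr rfl ?_
    intro s _
    rw [Finset.sum_comm]
  -- fibre products
  set P : ZMod m → ℤ := fun y => H 0 y * H 1 y * H 2 y * H 3 y with hPdef
  have hem : e ((m : ℕ) : ZMod (4 * m)) = (((m : ℕ) : ZMod 4), 0) := by
    rw [map_natCast]
    ext
    · simp
    · simp
  have hμ : ((m : ℕ) : ZMod 4) = 1 ∨ ((m : ℕ) : ZMod 4) = 3 := by
    have h4 : m % 4 = 1 ∨ m % 4 = 3 := by
      obtain ⟨k, hk⟩ := hodd
      omega
    rw [← ZMod.natCast_mod m 4]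
    rcases h4 with h4 | h4 <;> rw [h4]
    · left; rfl
    · right; rfl
  have hk : ∀ x : ZMod (4 * m), h x = H (e x).1 (e x).2 := by
    intro x
    simp only [hHdef, Prod.mk.eta, RingEquiv.symm_apply_apply]
  have hqP : ∀ j, q j = P (e j).2 := by
    intro j
    rw [hq, hk j, hk (j + m), hk (j + 2 * m), hk (j + 3 * m)]
    have e2 : e (j + 2 * m) = ((e j).1 + 2 * ((m : ℕ) : ZMod 4), (e j).2) := by
      rw [map_add, map_mul, hem, map_ofNat]
      ext <;> simp
    have e3 : e (j + 3 * m) = ((e j).1 + 3 * ((m : ℕ) : ZMod 4), (e j).2) := by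
      rw [map_add, map_mul, hem, map_ofNat]
      ext <;> simp
    have e1 : e (j + m) = ((e j).1 + ((m : ℕ) : ZMod 4), (e j).2) := by
      rw [map_add, hem]
      ext <;> simp
    rw [e1, e2, e3]
    exact fiber_prod (fun r => H r (e j).2) (e j).1 _ hμ
  -- half sums
  have key : ∀ y, ∃ g : ℤ, H 0 y + H 1 y + H 2 y + H 3 y = 2 * g ∧
      ((g : ZMod 2) = if P y = -1 then 1 else 0) ∧
      (((g * g : ℤ) : ZMod 4) = if P y = -1 then 1 else 0) := by
    intro y
    rcases Hpm 0 y with h0 | h0 <;> rcases Hpm 1 y with h1 | h1 <;>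
      rcases Hpm 2 y with h2 | h2 <;> rcases Hpm 3 y with h3 | h3 <;>
      simp only [hPdef, h0, h1, h2, h3]
    all_goals first
      | exact ⟨2, by decide, by decide, by decide⟩
      | exact ⟨1, by decide, by decide, by decide⟩
      | exact ⟨0, by decide, by decide, by decide⟩
      | exact ⟨-1, by decide, by decide, by decide⟩
      | exact ⟨-2, by decide, by decide, by decide⟩
  choose g hg1 hg2 hg4 using key
  have hgg : ∀ t : ZMod m, ∑ y, g y * g (y + t) = if t = 0 then (m : ℤ) else 0 := by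
    intro t
    have h1 := hG t
    have h2 : ∀ y : ZMod m, (H 0 y + H 1 y + H 2 y + H 3 y) *
        (H 0 (y + t) + H 1 (y + t) + H 2 (y + t) + H 3 (y + t)) =
        4 * (g y * g (y + t)) := by
      intro y
      rw [hg1 y, hg1 (y + t)]; ring
    simp_rw [h2] at h1
    rw [← Finset.mul_sum] at h1
    by_cases ht : t = 0
    · rw [if_pos ht] at h1 ⊢
      push_cast at h1
      linarith
    · rw [if_neg ht] at h1 ⊢
      linarith
  have hpar : ∀ t : ZMod m, ((∑ y, g y * g (y + t) : ℤ) : ZMod 2) =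
      (((Finset.univ.filter (fun y : ZMod m => P y = -1 ∧ P (y + t) = -1)).card : ℕ) :
        ZMod 2) := by
    intro t
    rw [Finset.card_filter]
    push_cast
    refine Finset.sum_congr rfl (fun y _ => ?_)
    rw [hg2 y, hg2 (y + t)]
    by_cases h1 : P y = -1 <;> by_cases h2 : P (y + t) = -1 <;> simp [h1, h2]
  have heven : ∀ t : ZMod m, t ≠ 0 →
      2 ∣ (Finset.univ.filter (fun y : ZMod m => P y = -1 ∧ P (y + t) = -1)).card := by
    intro t ht
    have h1 := hpar t
    rw [hgg t, if_neg ht, Int.cast_zero] at h1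
    exact (ZMod.natCast_eq_zero_iff _ 2).mp h1.symm
  have hoddc : (Finset.univ.filter (fun y : ZMod m => P y = -1 ∧ P (y + 0) = -1)).card % 4
      = m % 4 := by
    have h1 : ((∑ y, g y * g (y + 0) : ℤ) : ZMod 4) =
        (((Finset.univ.filter (fun y : ZMod m => P y = -1 ∧ P (y + 0) = -1)).card : ℕ) :
          ZMod 4) := by
      rw [Finset.card_filter]
      push_cast
      refine Finset.sum_congr rfl (fun y _ => ?_)
      rw [add_zero, ← Int.cast_mul, hg4 y]
      by_cases h1 : P y = -1 <;> simp [h1]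
    rw [hgg 0, if_pos rfl, Int.cast_natCast] at h1
    exact ((ZMod.natCast_eq_natCast_iff' _ _ 4).mp h1).symm
  have Ppm : ∀ y, P y = 1 ∨ P y = -1 := by
    intro y
    rcases Hpm 0 y with h0 | h0 <;> rcases Hpm 1 y with h1 | h1 <;>
      rcases Hpm 2 y with h2 | h2 <;> rcases Hpm 3 y with h3 | h3 <;>
      simp only [hPdef, h0, h1, h2, h3] <;> decide
  have hm2 : ((m : ℕ) : ZMod 2) = 1 := by
    obtain ⟨k, hk⟩ := hodd
    rw [hk]
    push_cast
    have : (2 : ZMod 2) = 0 := by decide
    rw [this]; ring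
  have hpar1 : ∀ t : ZMod m, t ≠ 0 →
      (Finset.univ.filter (fun y : ZMod m => P y = 1 ∧ P (y + t) = 1)).card % 2 = 1 := by
    intro t ht
    have h1 : (((Finset.univ.filter (fun y : ZMod m => P y = 1 ∧ P (y + t) = 1)).card : ℕ) :
        ZMod 2) = ((1 : ℕ) : ZMod 2) := by
      rw [Finset.card_filter]
      push_cast
      have h2 : ∀ y : ZMod m, (if P y = 1 ∧ P (y + t) = 1 then (1 : ZMod 2) else 0) =
          1 + (g y : ZMod 2) + (g (y + t) : ZMod 2) + ((g y * g (y + t) : ℤ) : ZMod 2) := by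
        intro y
        push_cast
        rw [hg2 y, hg2 (y + t)]
        rcases Ppm y with a | a <;> rcases Ppm (y + t) with b | b <;> rw [a, b] <;> decide
      simp_rw [h2]
      have h3 : ∑ y : ZMod m, (g (y + t) : ZMod 2) = ∑ y : ZMod m, (g y : ZMod 2) :=
        Equiv.sum_comp (Equiv.addRight t) (fun y => (g y : ZMod 2))
      have h4 : ∑ y : ZMod m, ((g y * g (y + t) : ℤ) : ZMod 2) = 0 := by
        rw [← Int.cast_sum, hgg t, if_neg ht, Int.cast_zero]
      rw [Finset.sum_add_distrib, Finset.sum_add_distrib, Finset.sum_add_distrib,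
        Finset.sum_const, Finset.card_univ, ZMod.card, nsmul_eq_mul, mul_one, h4, add_zero,
        hm2, h3, add_assoc, CharTwo.add_self_eq_zero, add_zero]
    exact (ZMod.natCast_eq_natCast_iff' _ _ 2).mp h1
  have hcount : ∀ (v : ℤ) (t : ZMod (4 * m)),
      (Finset.univ.filter (fun j : ZMod (4 * m) => q j = v ∧ q (j + t) = v)).card =
      4 * (Finset.univ.filter (fun y : ZMod m => P y = v ∧ P (y + (e t).2) = v)).card := by
    intro v t
    have h1 := crt_sum e (fun j => if q j = v ∧ q (j + t) = v then (1 : ℤ) else 0)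
    have h2 : ∀ (r : ZMod 4) (y : ZMod m),
        (if q (e.symm (r, y)) = v ∧ q (e.symm (r, y) + t) = v then (1 : ℤ) else 0) =
        (if P y = v ∧ P (y + (e t).2) = v then (1 : ℤ) else 0) := by
      intro r y
      rw [hqP, hqP, map_add, RingEquiv.apply_symm_apply]
      rfl
    simp_rw [h2] at h1
    rw [Finset.sum_boole, Finset.sum_const, Finset.sum_boole, Finset.card_univ, ZMod.card]
      at h1
    have h3 : (((Finset.univ.filter (fun j : ZMod (4 * m) => q j = v ∧ q (j + t) = v)).card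
        : ℕ) : ℤ) = ((4 * (Finset.univ.filter
          (fun y : ZMod m => P y = v ∧ P (y + (e t).2) = v)).card : ℕ) : ℤ) := by
      rw [h1]
      push_cast
      ring
    exact_mod_cast h3
  have e0 : (e 0).2 = 0 := by rw [map_zero]; rfl
  have hsingle : ∀ v : ℤ, (Finset.univ.filter (fun j : ZMod (4 * m) => q j = v)).card =
      4 * (Finset.univ.filter (fun y : ZMod m => P y = v)).card := by
    intro v
    have h0 := hcount v 0
    rw [e0] at h0
    have h1 : (Finset.univ.filter (fun j : ZMod (4 * m) => q j = v)) =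
        (Finset.univ.filter (fun j : ZMod (4 * m) => q j = v ∧ q (j + 0) = v)) := by
      ext j
      simp
    have h2 : (Finset.univ.filter (fun y : ZMod m => P y = v)) =
        (Finset.univ.filter (fun y : ZMod m => P y = v ∧ P (y + 0) = v)) := by
      ext y
      simp
    rw [h1, h2, h0]
  have hne : ∀ t : ZMod (4 * m), ¬ m ∣ t.val → (e t).2 ≠ 0 := by
    intro t ht
    rw [he t]
    intro h0
    exact ht ((ZMod.natCast_eq_zero_iff _ _).mp h0)
  -- double counting for the cosets with product one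
  have hdc : m - 1 + (Finset.univ.filter (fun y : ZMod m => P y = 1)).card ≤
      (Finset.univ.filter (fun y : ZMod m => P y = 1)).card *
        (Finset.univ.filter (fun y : ZMod m => P y = 1)).card := by
    have h1 : ∑ t : ZMod m, (Finset.univ.filter (fun y : ZMod m => P y = 1 ∧ P (y + t) = 1)).card
        = (Finset.univ.filter (fun y : ZMod m => P y = 1)).card *
          (Finset.univ.filter (fun y : ZMod m => P y = 1)).card := by
      simp_rw [Finset.card_filter]
      rw [Finset.sum_comm]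
      have h2 : ∀ y : ZMod m, ∑ t : ZMod m, (if P y = 1 ∧ P (y + t) = 1 then 1 else 0) =
          if P y = 1 then ∑ t : ZMod m, (if P t = 1 then 1 else 0) else 0 := by
        intro y
        by_cases hy : P y = 1
        · simp only [hy, true_and, if_true]
          exact Equiv.sum_comp (Equiv.addLeft y) (fun t => if P t = 1 then 1 else 0)
        · simp [hy]
      simp_rw [h2]
      rw [← Finset.sum_filter, Finset.sum_const, smul_eq_mul, Finset.card_filter]
    have h3 : (Finset.univ.filter (fun y : ZMod m => P y = 1 ∧ P (y + 0) = 1)).card +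
        ∑ t ∈ Finset.univ.erase (0 : ZMod m),
          (Finset.univ.filter (fun y : ZMod m => P y = 1 ∧ P (y + t) = 1)).card =
        ∑ t : ZMod m, (Finset.univ.filter (fun y : ZMod m => P y = 1 ∧ P (y + t) = 1)).card :=
      Finset.add_sum_erase Finset.univ
        (fun t => (Finset.univ.filter (fun y : ZMod m => P y = 1 ∧ P (y + t) = 1)).card)
        (Finset.mem_univ 0)
    have h4 : (Finset.univ.erase (0 : ZMod m)).card ≤ ∑ t ∈ Finset.univ.erase (0 : ZMod m),
          (Finset.univ.filter (fun y : ZMod m => P y = 1 ∧ P (y + t) = 1)).card := by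
      rw [Finset.card_eq_sum_ones]
      refine Finset.sum_le_sum (fun t ht => ?_)
      have := hpar1 t (Finset.ne_of_mem_erase ht)
      omega
    rw [Finset.card_erase_of_mem (Finset.mem_univ 0), Finset.card_univ, ZMod.card] at h4
    have h5 : (Finset.univ.filter (fun y : ZMod m => P y = 1 ∧ P (y + 0) = 1)) =
        (Finset.univ.filter (fun y : ZMod m => P y = 1)) := by
      ext y
      simp
    rw [h5] at h3
    omega
  refine ⟨?_, ?_, ?_, ?_⟩
  · have h1 : (Finset.univ.filter (fun y : ZMod m => P y = -1 ∧ P (y + 0) = -1)) =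
        (Finset.univ.filter (fun y : ZMod m => P y = -1)) := by
      ext y
      simp
    rw [h1] at hoddc
    rw [hsingle (-1)]
    omega
  · intro t ht
    obtain ⟨k, hk⟩ := heven _ (hne t ht)
    rw [hcount (-1) t, hk]
    exact ⟨k, by ring⟩
  · intro t ht
    have := hpar1 _ (hne t ht)
    rw [hcount 1 t]
    omega
  · rw [hsingle 1]
    nlinarith [hdc]

theorem quarter_both {m : ℕ} [NeZero (4 * m)] (hodd : Odd m) (hm : 1 < m)
    (h : ZMod (4 * m) → ℤ) (hH : (Matrix.circulant h).IsHadamard)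
    (q : ZMod (4 * m) → ℤ)
    (hq : ∀ j, q j = h j * h (j + m) * h (j + 2 * m) * h (j + 3 * m)) :
    (∃ j, q j = 1) ∧ (∃ j, q j = -1) := by
  obtain ⟨h1, h2, -, -⟩ := quarter_main hodd h hH q hq
  have hpm : ∀ j, q j = 1 ∨ q j = -1 := by
    intro j
    rw [hq]
    rcases entry_pm hH j with a | a <;> rcases entry_pm hH (j + m) with b | b <;>
      rcases entry_pm hH (j + 2 * m) with c | c <;> rcases entry_pm hH (j + 3 * m) with d | d <;>
      rw [a, b, c, d] <;> decide
  refine ⟨?_, ?_⟩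
  · by_contra hno
    have hall : ∀ j, q j = -1 := by
      intro j
      rcases hpm j with a | a
      · exact absurd ⟨j, a⟩ hno
      · exact a
    have hv : ¬ m ∣ ((1 : ℕ) : ZMod (4 * m)).val := by
      rw [ZMod.val_natCast, Nat.mod_eq_of_lt (by omega)]
      intro hd
      have := Nat.le_of_dvd (by omega) hd
      omega
    have h3 := h2 _ hv
    have h4 : (Finset.univ.filter (fun j : ZMod (4 * m) =>
        q j = -1 ∧ q (j + ((1 : ℕ) : ZMod (4 * m))) = -1)) = Finset.univ := by
      ext j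
      simp [hall]
    rw [h4, Finset.card_univ, ZMod.card] at h3
    obtain ⟨k, hk⟩ := hodd
    omega
  · by_contra hno
    have h4 : (Finset.univ.filter (fun j : ZMod (4 * m) => q j = -1)) = ∅ := by
      ext j
      simp only [Finset.mem_filter, Finset.mem_univ, true_and, Finset.notMem_empty, iff_false]
      intro a
      exact hno ⟨j, a⟩
    rw [h4, Finset.card_empty] at h1
    obtain ⟨k, hk⟩ := hodd
    omega

end Vale.Agent.Lib.P033
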