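import Vale.Agent.Lib.P033.Basic

namespace Vale.Agent.Lib.P033

open Finset Matrix

variable {n : ℕ} [NeZero n]

theorem corr_eq {h : ZMod n → ℤ} (hH : (Matrix.circulant h).IsHadamard) (s t : ZMod n) :
    ∑ x, h (x + s) * h (x + t) = if s = t then (n : ℤ) else 0 := by
  split_ifs with hst
  · subst hst
    have : ∀ x : ZMod n, h (x + s) * h (x + s) = 1 := fun x => entry_sq hH _
    simp [this, ZMod.card]
  · have ht : t - s ≠ 0 := fun e => hst (sub_eq_zero.mp e).symm
    rw [← autocorr hH ht]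
    refine Fintype.sum_equiv (Equiv.addRight s) _ _ ?_
    intro x
    simp only [Equiv.coe_addRight]
    congr 2
    abel

theorem window_sq_sum {h : ZMod n → ℤ} (hH : (Matrix.circulant h).IsHadamard) (d : ZMod n)
    (L : ℕ) (hinj : ∀ i < L, ∀ i' < L, i • d = i' • d → i = i') :
    ∑ x : ZMod n, (∑ i ∈ range L, h (x + i • d)) ^ 2 = (n : ℤ) * L := by
  have h1 : ∀ x : ZMod n, (∑ i ∈ range L, h (x + i • d)) ^ 2 =
      ∑ i ∈ range L, ∑ i' ∈ range L, h (x + i • d) * h (x + i' • d) := by
    intro x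
    rw [sq, Finset.sum_mul_sum]
  simp_rw [h1]
  rw [Finset.sum_comm]
  have h2 : ∀ i ∈ range L, ∑ x : ZMod n, ∑ i' ∈ range L, h (x + i • d) * h (x + i' • d) =
      (n : ℤ) := by
    intro i hi
    rw [Finset.sum_comm]
    have h3 : ∀ i' ∈ range L, ∑ x : ZMod n, h (x + i • d) * h (x + i' • d) =
        if i = i' then (n : ℤ) else 0 := by
      intro i' hi'
      rw [corr_eq hH]
      by_cases hii : i = i'
      · rw [if_pos hii, if_pos (by rw [hii])]
      · have : i • d ≠ i' • d := fun e =>
          hii (hinj i (mem_range.mp hi) i' (mem_range.mp hi') e)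
        rw [if_neg hii, if_neg this]
    rw [Finset.sum_congr rfl h3, Finset.sum_ite_eq, if_pos hi]
  rw [Finset.sum_congr rfl h2, Finset.sum_const, Finset.card_range, nsmul_eq_mul, mul_comm]

theorem ap_window_bound {h : ZMod n → ℤ} (hH : (Matrix.circulant h).IsHadamard)
    (a d : ZMod n) (R : ℕ)
    (hinj : ∀ i < R, ∀ i' < R, a + i • d = a + i' • d → i = i')
    (hconst : ∀ i < R, h (a + i • d) = h a) (L : ℕ) (hL1 : 1 ≤ L) (hL : L ≤ R) :
    (R - L + 1) * L ≤ n := by
  have hinj' : ∀ i < L, ∀ i' < L, i • d = i' • d → i = i' := by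
    intro i hi i' hi' e
    exact hinj i (by omega) i' (by omega) (by rw [e])
  have hsum := window_sq_sum hH d L hinj'
  have hsub : ∑ t ∈ range (R - L + 1), (∑ i ∈ range L, h ((a + t • d) + i • d)) ^ 2 ≤
      ∑ x : ZMod n, (∑ i ∈ range L, h (x + i • d)) ^ 2 := by
    have himg : ∑ t ∈ range (R - L + 1), (∑ i ∈ range L, h ((a + t • d) + i • d)) ^ 2 =
        ∑ x ∈ (range (R - L + 1)).image (fun t : ℕ => a + t • d),
          (∑ i ∈ range L, h (x + i • d)) ^ 2 := by
      rw [Finset.sum_image]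
      intro t ht t' ht' e
      have ht1 := mem_range.mp (mem_coe.mp ht)
      have ht2 := mem_range.mp (mem_coe.mp ht')
      exact hinj t (by omega) t' (by omega) e
    rw [himg]
    exact Finset.sum_le_sum_of_subset_of_nonneg (Finset.subset_univ _)
      (fun _ _ _ => sq_nonneg _)
  have hwin : ∀ t ∈ range (R - L + 1),
      (∑ i ∈ range L, h ((a + t • d) + i • d)) ^ 2 = (L : ℤ) * L := by
    intro t ht
    have ht1 := mem_range.mp ht
    have : ∀ i ∈ range L, h ((a + t • d) + i • d) = h a := by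
      intro i hi
      have hi1 := mem_range.mp hi
      have e : (a + t • d) + i • d = a + (t + i) • d := by
        rw [add_smul, add_assoc]
      rw [e]
      exact hconst (t + i) (by omega)
    rw [Finset.sum_congr rfl this, Finset.sum_const, Finset.card_range, nsmul_eq_mul]
    have := entry_sq hH a
    nlinarith
  rw [Finset.sum_congr rfl hwin, Finset.sum_const, Finset.card_range, hsum,
    nsmul_eq_mul] at hsub
  have hLpos : (0 : ℤ) < (L : ℤ) := by exact_mod_cast hL1
  have h5 : ((R - L + 1 : ℕ) : ℤ) * (L : ℤ) ≤ (n : ℤ) := by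
    have h6 : ((R - L + 1 : ℕ) : ℤ) * (L : ℤ) * (L : ℤ) ≤ (n : ℤ) * (L : ℤ) := by
      rw [mul_assoc]; exact hsub
    exact le_of_mul_le_mul_right h6 hLpos
  exact_mod_cast h5

theorem ap_bound {h : ZMod n → ℤ} (hH : (Matrix.circulant h).IsHadamard)
    (a d : ZMod n) (R : ℕ)
    (hinj : ∀ i < R, ∀ i' < R, a + i • d = a + i' • d → i = i')
    (hconst : ∀ i < R, h (a + i • d) = h a) :
    R * (R + 2) ≤ 4 * n := by
  rcases Nat.even_or_odd' R with ⟨L, hR | hR⟩
  · -- R = 2 L
    rcases Nat.eq_zero_or_pos L with h0 | hpos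
    · subst h0; simp [hR]
    have hb := ap_window_bound hH a d R hinj hconst L hpos (by omega)
    have e : R - L + 1 = L + 1 := by omega
    rw [e] at hb
    subst hR
    nlinarith
  · -- R = 2 L + 1
    have hb := ap_window_bound hH a d R hinj hconst (L + 1) (by omega) (by omega)
    have e : R - (L + 1) + 1 = L + 1 := by omega
    rw [e] at hb
    subst hR
    nlinarith

end Vale.Agent.Lib.P033
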