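import Vale.Agent.Lib.P033.Runs
import Vale.Agent.Lib.P033.Core

namespace Vale.Agent.Lib.P033

open Finset Matrix

theorem val_crt_parity {m : ℕ} [NeZero (4 * m)] (hc : Nat.Coprime 4 m) (j : ZMod (4 * m)) :
    ((ZMod.chineseRemainder hc j).1).val % 2 = j.val % 2 := by
  have h1 : (ZMod.chineseRemainder hc j).1 = ((j.val : ℕ) : ZMod 4) := by
    change (ZMod.castHom (show Nat.lcm 4 m ∣ 4 * m by simp [Nat.lcm_dvd_iff])
      (ZMod 4 × ZMod m) j).1 = _
    rw [ZMod.castHom_apply, Prod.fst_zmod_cast, ZMod.natCast_val]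
  rw [h1, ZMod.val_natCast]
  omega

theorem crt_sum {m : ℕ} [NeZero (4 * m)] [NeZero m] (e : ZMod (4 * m) ≃+* ZMod 4 × ZMod m)
    (f : ZMod (4 * m) → ℤ) :
    ∑ j, f j = ∑ r : ZMod 4, ∑ y : ZMod m, f (e.symm (r, y)) := by
  rw [← Fintype.sum_prod_type']
  exact (Equiv.sum_comp e.symm.toEquiv f).symm

theorem twisted_aux {m : ℕ} [NeZero (4 * m)] (hodd : Odd m) (hm : 1 < m)
    (h : ZMod (4 * m) → ℤ) (hH : (Matrix.circulant h).IsHadamard)
    (hS : ∀ j : ZMod (4 * m), h (-j) = (-1) ^ j.val * h j) : False := by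
  have : NeZero m := ⟨by omega⟩
  have hc : Nat.Coprime 4 m := by
    have : Nat.Coprime 2 m := Nat.coprime_two_left.mpr hodd
    exact Nat.Coprime.pow_left 2 this
  obtain ⟨e, he⟩ : ∃ e : ZMod (4 * m) ≃+* ZMod 4 × ZMod m,
      ∀ j, ((e j).1).val % 2 = j.val % 2 := ⟨ZMod.chineseRemainder hc, val_crt_parity hc⟩
  set H : ZMod 4 → ZMod m → ℤ := fun r y => h (e.symm (r, y)) with hHdef
  have Hpm : ∀ r y, H r y = 1 ∨ H r y = -1 := fun r y => entry_pm hH _
  -- perfectness in product form
  have hP : ∀ (s : ZMod 4) (t : ZMod m), ∑ r : ZMod 4, ∑ y : ZMod m, H r y * H (r + s) (y + t) =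
      if (s = 0 ∧ t = 0) then ((4 * m : ℕ) : ℤ) else 0 := by
    intro s t
    have h1 := corr_eq hH 0 (e.symm (s, t))
    rw [crt_sum e] at h1
    have h2 : ∀ (r : ZMod 4) (y : ZMod m),
        h (e.symm (r, y) + 0) * h (e.symm (r, y) + e.symm (s, t)) = H r y * H (r + s) (y + t) := by
      intro r y
      rw [add_zero, ← map_add]
      rfl
    simp_rw [h2] at h1
    rw [h1]
    by_cases hst : s = 0 ∧ t = 0
    · rw [if_pos hst, if_pos]
      rw [hst.1, hst.2]
      exact (map_zero e.symm).symm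
    · rw [if_neg hst, if_neg]
      intro e0
      apply hst
      have e1 : e.symm (s, t) = e.symm 0 := by rw [← e0, map_zero]
      have e2 := e.symm.injective e1
      exact ⟨congrArg Prod.fst e2, congrArg Prod.snd e2⟩
  -- symmetry in product form
  have hSym : ∀ (r : ZMod 4) (y : ZMod m), H (-r) (-y) = (-1) ^ (r.val % 2) * H r y := by
    intro r y
    have h1 := hS (e.symm (r, y))
    have h2 : -(e.symm (r, y)) = e.symm (-r, -y) := by
      rw [← map_neg]; rfl
    have h3 := he (e.symm (r, y))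
    rw [RingEquiv.apply_symm_apply] at h3
    rw [h2, neg_one_pow_eq_pow_mod_two (R := ℤ), ← h3] at h1
    exact h1
  have hS0 : ∀ y, H 0 (-y) = H 0 y := by
    intro y
    have := hSym 0 y
    simpa using this
  have hS2 : ∀ y, H 2 (-y) = H 2 y := by
    intro y
    have := hSym 2 y
    have e2 : (-2 : ZMod 4) = 2 := by decide
    have e3 : (2 : ZMod 4).val % 2 = 0 := by decide
    rw [e2, e3] at this
    simpa using this
  have hS1 : ∀ y, H 3 (-y) = - H 1 y := by
    intro y
    have := hSym 1 y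
    have e2 : (-1 : ZMod 4) = 3 := by decide
    have e3 : (1 : ZMod 4).val % 2 = 1 := by decide
    rw [e2, e3] at this
    simpa using this
  have hS3 : ∀ y, H 1 (-y) = - H 3 y := by
    intro y
    have := hSym 3 y
    have e2 : (-3 : ZMod 4) = 1 := by decide
    rw [e2] at this
    have e3 : (3 : ZMod 4).val % 2 = 1 := by decide
    rw [e3] at this
    simpa using this
  -- folded correlation
  have hG : ∀ t : ZMod m, ∑ y : ZMod m, (H 0 y + H 1 y + H 2 y + H 3 y) *
      (H 0 (y + t) + H 1 (y + t) + H 2 (y + t) + H 3 (y + t)) =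
      if t = 0 then ((4 * m : ℕ) : ℤ) else 0 := by
    intro t
    have h1 : ∑ s : ZMod 4, ∑ r : ZMod 4, ∑ y : ZMod m, H r y * H (r + s) (y + t) =
        ∑ s : ZMod 4, (if (s = 0 ∧ t = 0) then ((4 * m : ℕ) : ℤ) else 0) :=
      Finset.sum_congr rfl (fun s _ => hP s t)
    have h2 : ∑ s : ZMod 4, (if (s = 0 ∧ t = 0) then ((4 * m : ℕ) : ℤ) else 0) =
        if t = 0 then ((4 * m : ℕ) : ℤ) else 0 := by
      by_cases ht : t = 0
      · simp [ht]
      · simp [ht]
    rw [h2] at h1
    rw [← h1]
    have h3 : ∀ y : ZMod m, (H 0 y + H 1 y + H 2 y + H 3 y) *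
        (H 0 (y + t) + H 1 (y + t) + H 2 (y + t) + H 3 (y + t)) =
        ∑ s : ZMod 4, ∑ r : ZMod 4, H r y * H (r + s) (y + t) := by
      intro y
      have e4 : ∀ f : ZMod 4 → ℤ, ∑ s : ZMod 4, f s = f 0 + f 1 + f 2 + f 3 := by
        intro f
        exact Fin.sum_univ_four f
      rw [e4]
      simp only [e4]
      have a1 : (1 : ZMod 4) + 1 = 2 := by decide
      have a2 : (1 : ZMod 4) + 2 = 3 := by decide
      have a3 : (1 : ZMod 4) + 3 = 0 := by decide
      have a4 : (2 : ZMod 4) + 1 = 3 := by decide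
      have a5 : (2 : ZMod 4) + 2 = 0 := by decide
      have a6 : (2 : ZMod 4) + 3 = 1 := by decide
      have a7 : (3 : ZMod 4) + 1 = 0 := by decide
      have a8 : (3 : ZMod 4) + 2 = 1 := by decide
      have a9 : (3 : ZMod 4) + 3 = 2 := by decide
      simp only [add_zero, zero_add, a1, a2, a3, a4, a5, a6, a7, a8, a9]
      ring
    simp_rw [h3]
    rw [Finset.sum_comm]
    refine Finset.sum_congr rfl ?_
    intro s _
    rw [Finset.sum_comm]
  -- halves
  have key : ∀ y, ∃ a b : ℤ, (a = 0 ∨ a = 1 ∨ a = -1) ∧ (b = 0 ∨ b = 1 ∨ b = -1) ∧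
      H 0 y + H 2 y = 2 * a ∧ H 1 y + H 3 y = 2 * b := by
    intro y
    rcases Hpm 0 y with h0 | h0 <;> rcases Hpm 1 y with h1 | h1 <;>
      rcases Hpm 2 y with h2 | h2 <;> rcases Hpm 3 y with h3 | h3 <;>
      rw [h0, h1, h2, h3]
    all_goals first
      | exact ⟨1, 1, by decide, by decide, by decide, by decide⟩
      | exact ⟨1, 0, by decide, by decide, by decide, by decide⟩
      | exact ⟨1, -1, by decide, by decide, by decide, by decide⟩
      | exact ⟨0, 1, by decide, by decide, by decide, by decide⟩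
      | exact ⟨0, 0, by decide, by decide, by decide, by decide⟩
      | exact ⟨0, -1, by decide, by decide, by decide, by decide⟩
      | exact ⟨-1, 1, by decide, by decide, by decide, by decide⟩
      | exact ⟨-1, 0, by decide, by decide, by decide, by decide⟩
      | exact ⟨-1, -1, by decide, by decide, by decide, by decide⟩
  choose a b ha hb ha2 hb2 using key
  have hae : ∀ y, a (-y) = a y := by
    intro y
    have h1 := ha2 (-y)
    rw [hS0, hS2, ha2 y] at h1
    omega
  have hbo : ∀ y, b (-y) = - b y := by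
    intro y
    have h1 := hb2 (-y)
    rw [hS3, hS1] at h1
    have h2 := hb2 y
    omega
  have hcorr : ∀ t : ZMod m, ∑ y, (a y + b y) * (a (y + t) + b (y + t)) =
      if t = 0 then (m : ℤ) else 0 := by
    intro t
    have h1 := hG t
    have h2 : ∀ y : ZMod m, (H 0 y + H 1 y + H 2 y + H 3 y) *
        (H 0 (y + t) + H 1 (y + t) + H 2 (y + t) + H 3 (y + t)) =
        4 * ((a y + b y) * (a (y + t) + b (y + t))) := by
      intro y
      have e1 : H 0 y + H 1 y + H 2 y + H 3 y = 2 * (a y + b y) := by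
        have := ha2 y; have := hb2 y; linarith
      have e2 : H 0 (y + t) + H 1 (y + t) + H 2 (y + t) + H 3 (y + t) =
          2 * (a (y + t) + b (y + t)) := by
        have := ha2 (y + t); have := hb2 (y + t); linarith
      rw [e1, e2]; ring
    simp_rw [h2] at h1
    rw [← Finset.mul_sum] at h1
    by_cases ht : t = 0
    · rw [if_pos ht] at h1 ⊢
      push_cast at h1
      linarith
    · rw [if_neg ht] at h1 ⊢
      linarith
  exact core hodd hm a b ha hb hae hbo hcorr

end Vale.Agent.Lib.P033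

namespace Vale.Agent.Lib.P033

open Finset Matrix

theorem neg_one_pow_val_add {k : ℕ} [NeZero k] (hk : 2 ∣ k) (j s : ZMod k) :
    ((-1 : ℤ)) ^ (j + s).val = (-1) ^ j.val * (-1) ^ s.val := by
  rw [ZMod.val_add, neg_one_pow_eq_pow_mod_two (R := ℤ), Nat.mod_mod_of_dvd _ hk,
    ← neg_one_pow_eq_pow_mod_two (R := ℤ), pow_add]

theorem translate_isHadamard {n : ℕ} [NeZero n] (h : ZMod n → ℤ)
    (hH : (Matrix.circulant h).IsHadamard) (s : ZMod n) :
    (Matrix.circulant (fun j => h (j + s))).IsHadamard := by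
  have e : Matrix.circulant (fun j => h (j + s)) =
      (Matrix.circulant h).submatrix (Equiv.addRight s) (Equiv.refl (ZMod n)) := by
    ext i j
    simp only [Matrix.circulant_apply, Matrix.submatrix_apply, Equiv.coe_addRight,
      Equiv.refl_apply]
    congr 1
    abel
  rw [e]
  exact (Matrix.isHadamard_submatrix_equiv_iff _ _).mpr hH

theorem no_twisted_reflection {n : ℕ} [NeZero n] (hn : 4 < n) (h8 : ¬ 8 ∣ n) (h : ZMod n → ℤ)
    (hH : (Matrix.circulant h).IsHadamard) :
    ¬ ∃ (c : ZMod n) (ε : ℤ), ∀ j : ZMod n, h (c - j) = ε * (-1) ^ j.val * h j := by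
  have h4 : 4 ∣ n := by
    have := hH.four_dvd_card (by rw [ZMod.card]; omega)
    rwa [ZMod.card] at this
  obtain ⟨m, rfl⟩ := h4
  have hodd : Odd m := by
    rcases Nat.even_or_odd m with he | ho
    · exfalso
      obtain ⟨k, hk⟩ := he
      exact h8 ⟨k, by omega⟩
    · exact ho
  have hm : 1 < m := by omega
  have h2k : 2 ∣ 4 * m := ⟨2 * m, by ring⟩
  rintro ⟨c, ε, hS⟩
  -- ε is a sign
  have hε : ε * ε = 1 := by
    have h0 := hS 0
    rw [sub_zero, ZMod.val_zero, pow_zero, mul_one] at h0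
    have hc2 := entry_sq hH c
    have h02 := entry_sq hH 0
    have : h c * h c = ε * ε * (h 0 * h 0) := by rw [h0]; ring
    rw [hc2, h02, mul_one] at this
    exact this.symm
  -- c is even
  have hceven : (-1 : ℤ) ^ c.val = 1 := by
    have h0 := hS 0
    rw [sub_zero, ZMod.val_zero, pow_zero, mul_one] at h0
    have h1 := hS c
    rw [sub_self, h0] at h1
    have h02 := entry_sq hH 0
    have h3 : h 0 * h 0 = (ε * ε) * (-1) ^ c.val * (h 0 * h 0) := by
      nth_rewrite 1 [h1]; ring
    rw [h02, hε] at h3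
    linarith
  have hcval : c.val % 2 = 0 := by
    rcases Nat.even_or_odd c.val with he | ho
    · exact Nat.even_iff.mp he
    · rw [ho.neg_one_pow] at hceven
      exact absurd hceven (by decide)
  set s : ZMod (4 * m) := ((c.val / 2 : ℕ) : ZMod (4 * m)) with hs
  have hss : s + s = c := by
    rw [hs, ← Nat.cast_add]
    have : c.val / 2 + c.val / 2 = c.val := by omega
    rw [this, ZMod.natCast_zmod_val]
  have hH' := translate_isHadamard h hH s
  have hS' : ∀ j : ZMod (4 * m), h (-j + s) = (ε * (-1) ^ s.val) * (-1) ^ j.val * h (j + s) := by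
    intro j
    have h1 := hS (j + s)
    have e1 : c - (j + s) = -j + s := by rw [← hss]; abel
    rw [e1, neg_one_pow_val_add h2k] at h1
    rw [h1]; ring
  have hε' : ε * (-1) ^ s.val = 1 := by
    have h0 := hS' 0
    rw [neg_zero, ZMod.val_zero, pow_zero, mul_one, zero_add] at h0
    have hs2 := entry_sq hH s
    have : h s * h s = (ε * (-1) ^ s.val) * (h s * h s) := by
      nth_rewrite 1 [h0]; ring
    rw [hs2] at this
    linarith
  apply twisted_aux hodd hm (fun j => h (j + s)) hH'
  intro j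
  have := hS' j
  rw [hε', one_mul] at this
  exact this

end Vale.Agent.Lib.P033

namespace Vale.Agent.Lib.P033

open Matrix

theorem order_four_example : ∃ h : ZMod 4 → ℤ, (Matrix.circulant h).IsHadamard ∧
    ∀ j : ZMod 4, h (-j) = (-1) ^ j.val * h j := by
  refine ⟨fun j : ZMod 4 => if j = 3 then -1 else 1, ?_, ?_⟩
  · rw [Matrix.isHadamard_iff]
    refine ⟨?_, ?_, ?_⟩
    · intro i j
      rw [Unitary.mem_iff_eq_one_or_eq_neg_one, Matrix.circulant_apply]
      revert i j
      decide
    · ext i j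
      simp only [Matrix.mul_apply, Matrix.conjTranspose_apply, Matrix.circulant_apply,
        star_trivial, Matrix.smul_apply, Matrix.one_apply, ZMod.card]
      revert i j
      decide
    · ext i j
      simp only [Matrix.mul_apply, Matrix.conjTranspose_apply, Matrix.circulant_apply,
        star_trivial, Matrix.smul_apply, Matrix.one_apply, ZMod.card]
      revert i j
      decide
  · decide

end Vale.Agent.Lib.P033
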